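import Vale.Agent.P216FI.Vol

/-! The area formula for differentiable maps which need not be local diffeomorphisms. -/

set_option linter.all false
set_option maxSynthPendingDepth 3

open scoped Manifold ContDiff Topology ENNReal NNReal
open Set MeasureTheory Module
open Filter hiding comap comap_id

noncomputable section

namespace Vale.Agent.P216HV

open Vale.Agent.P219.RG Vale.Agent.P216R
open Vale.Agent.P210.R2.H53 (dens)

theorem lintegral_image_le {X Y : Type*} [TopologicalSpace X] [MeasurableSpace X] [BorelSpace X]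
    [TopologicalSpace Y] [MeasurableSpace Y] [BorelSpace Y] {μ : Measure X} {ν : Measure Y}
    {f : X → Y} {s : Set X} (hs : MeasurableSet s) (hf : ContinuousOn f s)
    (h : ∀ t ⊆ s, MeasurableSet t → ν (f '' t) ≤ μ t) {ρ : Y → ℝ≥0∞} (hρ : Measurable ρ) :
    ∫⁻ y in f '' s, ρ y ∂ν ≤ ∫⁻ x in s, ρ (f x) ∂μ := by
  rw [← lintegral_map' hρ.aemeasurable (hf.aemeasurable hs)]
  refine lintegral_mono' (Measure.le_iff.2 fun B hB => ?_) le_rfl
  rw [Measure.restrict_apply hB, Measure.map_apply_of_aemeasurable (hf.aemeasurable hs) hB,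
    Measure.restrict_apply' hs, inter_comm, ← image_inter_preimage, inter_comm _ s]
  exact h _ inter_subset_left (meas_inter_preimage hs hf hB)

variable {E : Type} [NormedAddCommGroup E] [NormedSpace ℝ E] [FiniteDimensional ℝ E]
  [MeasurableSpace E] [BorelSpace E]

theorem lintegral_image_le_det (μ : Measure E) [μ.IsAddHaarMeasure] {τ : E → E}
    {τ' : E → E →L[ℝ] E} {s D : Set E} (hs : MeasurableSet s)
    (hτ : ∀ x ∈ s, HasFDerivWithinAt τ (τ' x) s x) (hD : MeasurableSet D) (hm : MapsTo τ s D)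
    {ρ : E → ℝ≥0∞} (hρ : ContinuousOn ρ D) :
    ∫⁻ y in τ '' s, ρ y ∂μ ≤ ∫⁻ x in s, ENNReal.ofReal |(τ' x).det| * ρ (τ x) ∂μ := by
  classical
  have h1 := lintegral_image_le (μ := μ.withDensity fun x => ENNReal.ofReal |(τ' x).det|) (ν := μ)
    hs (fun x hx => (hτ x hx).continuousWithinAt) (fun t ht h => (withDensity_apply _ h).symm ▸
      addHaar_image_le_lintegral_abs_det_fderiv μ h fun x hx => (hτ x (ht hx)).mono ht)
    (hρ.measurable_piecewise (g := 0) continuousOn_const hD)
  rw [setLIntegral_withDensity_eq_setLIntegral_mul_non_measurable₀ μ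
    (aemeasurable_ofReal_abs_det_fderivWithin μ hs hτ) _ hs
    (Eventually.of_forall fun _ => ENNReal.ofReal_lt_top)] at h1
  refine le_trans (lintegral_mono_ae ?_) (h1.trans_eq (setLIntegral_congr_fun hs fun x hx => ?_))
  · exact ae_mono (Measure.restrict_mono hm.image_subset le_rfl) ((ae_restrict_mem hD).mono
      fun y hy => (piecewise_eq_of_mem _ _ _ hy).ge)
  · simp only [Pi.mul_apply, piecewise_eq_of_mem _ _ _ (hm hx)]

variable {M : Type} [TopologicalSpace M] [ChartedSpace E M] [MeasurableSpace M] [BorelSpace M]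
  {N : Type} [TopologicalSpace N] [ChartedSpace E N] [MeasurableSpace N] [BorelSpace N]
  [IsManifold 𝓘(ℝ, E) ∞ M] [IsManifold 𝓘(ℝ, E) ∞ N] {g : Ten E M} {U : Set M} {f : N → M}
  {K S : Set N}

/-- the chart formula is an upper bound for arbitrary sets -/
theorem vol_le_chart (g : Ten E M) {b : M} {X : Set M} (hX : X ⊆ (chartAt E b).source) :
    vol g X ≤ ∫⁻ z in chartAt E b '' X, ENNReal.ofReal (dens (co g b) z) ∂haar E := by
  refine (measure_mono (t := (chartAt E b).source ∩ chartAt E b ⁻¹'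
    toMeasurable (haar E) (chartAt E b '' X))
    fun y hy => ⟨hX hy, subset_toMeasurable _ _ (mem_image_of_mem _ hy)⟩).trans ?_
  rw [vol_chart g (meas_inter_preimage (chartAt E b).open_source.measurableSet
    (chartAt E b).continuousOn (measurableSet_toMeasurable _ _)) inter_subset_left,
    ← Measure.restrict_toMeasurable_of_sFinite (chartAt E b '' X)]
  exact lintegral_mono_set (image_subset_iff.2 inter_subset_right)

theorem chart_data {a : N} {b : M} (ha : S ⊆ (chartAt E a).source)
    (hb : MapsTo f S (chartAt E b).source) (hf : ∀ x ∈ S, MD E f x) :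
    chartAt E b '' (f '' S) = (chartAt E b ∘ (f ∘ (chartAt E a).symm)) '' (chartAt E a '' S) ∧
    ∀ z ∈ chartAt E a '' S, DifferentiableAt ℝ (chartAt E b ∘ (f ∘ (chartAt E a).symm)) z ∧
      ∀ g : Ten E M, co (comap f g) a z =
        (co g b ((chartAt E b ∘ (f ∘ (chartAt E a).symm)) z)).bilinearComp
          (fderiv ℝ (chartAt E b ∘ (f ∘ (chartAt E a).symm)) z)
          (fderiv ℝ (chartAt E b ∘ (f ∘ (chartAt E a).symm)) z) := by
  refine ⟨?_, ?_⟩
  · simp only [image_image, Function.comp_apply]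
    exact image_congr fun x hx => by rw [(chartAt E a).left_inv (ha hx)]
  rintro _ ⟨x, hx, rfl⟩
  have h1 : MD E f ((chartAt E a).symm (chartAt E a x)) := by
    rw [(chartAt E a).left_inv (ha hx)]; exact hf x hx
  have h2 := (chartAt E a).map_source (ha hx)
  have h3 : MD E (f ∘ (chartAt E a).symm) (chartAt E a x) := h1.comp _ (sm_symm h2).md
  have h4 : (f ∘ (chartAt E a).symm) (chartAt E a x) ∈ (chartAt E b).source := by
    simp only [Function.comp_apply, (chartAt E a).left_inv (ha hx)]
    exact hb hx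
  exact ⟨((sm_chart h4).md.comp _ h3).differentiableAt, fun g => by
    rw [co_comap g h2 h1, comap_eq g h3 h4, ← md_model]; rfl⟩

theorem exists_two {x : N} (hf : MD E f x) : ∃ W, IsOpen W ∧ x ∈ W ∧ W ⊆ (chartAt E x).source ∧
    MapsTo f W (chartAt E (f x)).source := by
  obtain ⟨W, h1, h2, h3⟩ := mem_nhds_iff.1 (inter_mem
    ((chartAt E x).open_source.mem_nhds (mem_chart_source E x))
    (hf.continuousAt ((chartAt E (f x)).open_source.mem_nhds (mem_chart_source E _))))
  exact ⟨W, h2, h3, fun y hy => (h1 hy).1, fun y hy => (h1 hy).2⟩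

theorem area_loc (hg : Met g U) {a : N} {b : M} (hS : MeasurableSet S)
    (ha : S ⊆ (chartAt E a).source) (hb : MapsTo f S (chartAt E b).source)
    (hf : ∀ x ∈ S, MD E f x) (hU : MapsTo f S U) : vol g (f '' S) ≤ vol (comap f g) S := by
  obtain ⟨e1, e2⟩ := chart_data ha hb hf
  have hm := meas_chart_image hS ha
  refine (vol_le_chart g hb.image_subset).trans ?_
  rw [e1, vol_chart _ hS ha]
  refine (lintegral_image_le_det (haar E) hm (fun z hz => (e2 z hz).1.hasFDerivAt.hasFDerivWithinAt)
    (isOpen_dom b hg.isOpen).measurableSet ?_ (ENNReal.continuous_ofReal.comp_continuousOn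
      (continuous_den.comp_continuousOn (hg.smooth b).continuousOn))).trans_eq
    (setLIntegral_congr_fun hm fun z hz => ?_)
  · rintro _ ⟨x, hx, rfl⟩
    simp only [Function.comp_apply, (chartAt E a).left_inv (ha hx)]
    exact mem_dom (hb hx) (hU hx)
  · simp only [dens_eq, (e2 z hz).2, den_comp]
    rw [ENNReal.ofReal_mul (abs_nonneg _)]
    rfl

/-- the area inequality -/
theorem area_le (hg : Met g U) (hK : IsLindelof K) (hf : ∀ x ∈ K, MD E f x) (hS : MeasurableSet S)
    (hSK : S ⊆ K) (hU : MapsTo f S U) : vol g (f '' S) ≤ vol (comap f g) S := by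
  have := le_of_loc (P := fun T => vol g (f '' (S ∩ T))) (ν := vol (comap f g)) (by simp)
    (fun s => by rw [inter_iUnion, image_iUnion]; exact measure_iUnion_le _) hK
    (fun x hx => ?_) hS hSK
  · simpa only [inter_self] using this
  obtain ⟨W, h1, h2, h3, h4⟩ := exists_two (hf x hx)
  exact ⟨W, h1, h2, fun T hT hm => (area_loc hg (hS.inter hm) (fun y hy => h3 (hT hy.2))
    (fun y hy => h4 (hT hy.2)) (fun y hy => hf y (hSK hy.1)) fun y hy => hU hy.1).trans
    (measure_mono inter_subset_right)⟩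

theorem lintegral_area_le (hg : Met g U) (hK : IsLindelof K) (hf : ∀ x ∈ K, MD E f x)
    (hS : MeasurableSet S) (hSK : S ⊆ K) (hU : MapsTo f S U) {ρ : M → ℝ≥0∞} (hρ : Measurable ρ) :
    ∫⁻ y in f '' S, ρ y ∂vol g ≤ ∫⁻ x in S, ρ (f x) ∂vol (comap f g) :=
  lintegral_image_le hS (fun x hx => (hf x (hSK hx)).continuousAt.continuousWithinAt)
    (fun _ ht h => area_le hg hK hf h (ht.trans hSK) (hU.mono_left ht)) hρ

theorem meas_loc {a : N} {b : M} (hS : MeasurableSet S) (ha : S ⊆ (chartAt E a).source)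
    (hb : MapsTo f S (chartAt E b).source) (hf : ∀ x ∈ S, MD E f x) (hi : InjOn f S) :
    MeasurableSet (f '' S) := by
  obtain ⟨e1, e2⟩ := chart_data ha hb hf
  have h := measurable_image_of_fderivWithin (meas_chart_image hS ha)
    (fun z hz => (e2 z hz).1.hasFDerivAt.hasFDerivWithinAt) (by
      rintro _ ⟨x, hx, rfl⟩ _ ⟨y, hy, rfl⟩ h
      simp only [Function.comp_apply, (chartAt E a).left_inv (ha hx),
        (chartAt E a).left_inv (ha hy)] at h
      rw [hi hx hy ((chartAt E b).injOn (hb hx) (hb hy) h)])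
  rw [← e1] at h
  convert meas_inter_preimage (chartAt E b).open_source.measurableSet (chartAt E b).continuousOn h
  exact ((chartAt E b).injOn.preimage_image_inter hb.image_subset).symm.trans (inter_comm _ _)

/-- a Lindelöf set is covered by countably many disjoint pieces seen in two charts -/
theorem exists_pieces (hK : IsLindelof K) (hf : ∀ x ∈ K, MD E f x) (hS : MeasurableSet S)
    (hSK : S ⊆ K) : ∃ (T : ℕ → Set N), ⋃ n, T n = S ∧ Pairwise (Function.onFun Disjoint T) ∧
      ∀ n, MeasurableSet (T n) ∧ T n ⊆ S ∧ (T n = ∅ ∨ ∃ (a : N) (b : M), T n ⊆ (chartAt E a).source ∧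
        MapsTo f (T n) (chartAt E b).source) := by
  choose! W h1 h2 h3 h4 using fun x hx => exists_two (hf x hx)
  obtain ⟨t, tc, tK, ht⟩ := hK.elim_nhds_subcover W fun x hx => (h1 x hx).mem_nhds (h2 x hx)
  rcases t.eq_empty_or_nonempty with rfl | tn
  · exact ⟨fun _ => ∅, by simp [subset_eq_empty (hSK.trans ht) (by simp)],
      fun _ _ _ => disjoint_bot_left, fun _ => ⟨MeasurableSet.empty, empty_subset _, .inl rfl⟩⟩
  obtain ⟨u, rfl⟩ := tc.exists_eq_range tn
  have hu : ∀ n, u n ∈ K := fun n => tK _ ⟨n, rfl⟩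
  refine ⟨fun n => S ∩ disjointed (W ∘ u) n, ?_, fun i j e => (disjoint_disjointed _ e).mono
    inter_subset_right inter_subset_right, fun n => ⟨hS.inter (MeasurableSet.disjointed
      (fun n => (h1 _ (hu n)).measurableSet) n), inter_subset_left, .inr ⟨u n, f (u n),
      fun y hy => h3 _ (hu n) (disjointed_subset (W ∘ u) n hy.2),
      fun y hy => h4 _ (hu n) (disjointed_subset (W ∘ u) n hy.2)⟩⟩⟩
  rw [← inter_iUnion, iUnion_disjointed, inter_eq_left]
  exact fun x hx => by simpa using ht (hSK hx)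

theorem area_meas (hK : IsLindelof K) (hf : ∀ x ∈ K, MD E f x) (hS : MeasurableSet S)
    (hSK : S ⊆ K) (hi : InjOn f S) : MeasurableSet (f '' S) := by
  obtain ⟨T, rfl, -, h⟩ := exists_pieces hK hf hS hSK
  rw [image_iUnion]
  refine MeasurableSet.iUnion fun n => ?_
  obtain ⟨h1, h2, h3 | ⟨a, b, h3, h4⟩⟩ := h n
  · simp [h3]
  · exact meas_loc h1 h3 h4 (fun x hx => hf x (hSK (h2 hx))) (hi.mono h2)

/-- the area formula for injective maps -/
theorem area_eq (g : Ten E M) (hK : IsLindelof K) (hf : ∀ x ∈ K, MD E f x) (hS : MeasurableSet S)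
    (hSK : S ⊆ K) (hi : InjOn f S) : vol g (f '' S) = vol (comap f g) S := by
  obtain ⟨T, rfl, hd, h⟩ := exists_pieces hK hf hS hSK
  have hm := fun n => area_meas hK hf (h n).1 ((h n).2.1.trans hSK) (hi.mono (h n).2.1)
  rw [image_iUnion, measure_iUnion hd fun n => (h n).1, measure_iUnion (fun i j e =>
    disjoint_image_image fun x hx y hy e' => (hd e).ne_of_mem hx hy
      (hi ((h i).2.1 hx) ((h j).2.1 hy) e')) hm]
  refine tsum_congr fun n => ?_
  obtain ⟨h1, h2, h3 | ⟨a, b, h3, h4⟩⟩ := h n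
  · simp [h3]
  · rw [vol_chart g (hm n) h4.image_subset, vol_chart _ h1 h3]
    exact cov g h1 h3 h4 (fun x hx => hf x (hSK (h2 hx))) (hi.mono h2)

variable {ψ : E → M} {S : Set E}

theorem vol_model' (G : E → Bil E) (hS : MeasurableSet S) :
    vol G S = ∫⁻ z in S, ENNReal.ofReal (dens G z) ∂haar E := by
  rw [vol_model, withDensity_apply _ hS]; rfl

/-- the area inequality for a parametrisation -/
theorem param_le (hg : Met g U) (hS : MeasurableSet S) (hf : ∀ u ∈ S, MD E ψ u)
    (hU : MapsTo ψ S U) :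
    vol g (ψ '' S) ≤ ∫⁻ z in S, ENNReal.ofReal (dens (comap ψ g) z) ∂haar E :=
  vol_model' (comap ψ g) hS ▸
    area_le hg (HereditarilyLindelofSpace.isLindelof S) hf hS Subset.rfl hU

theorem param_meas (hS : MeasurableSet S) (hf : ∀ u ∈ S, MD E ψ u) (hi : InjOn ψ S) :
    MeasurableSet (ψ '' S) :=
  area_meas (HereditarilyLindelofSpace.isLindelof S) hf hS Subset.rfl hi

/-- the area formula for an injective parametrisation -/
theorem param_eq (g : Ten E M) (hS : MeasurableSet S) (hf : ∀ u ∈ S, MD E ψ u) (hi : InjOn ψ S) :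
    vol g (ψ '' S) = ∫⁻ z in S, ENNReal.ofReal (dens (comap ψ g) z) ∂haar E :=
  vol_model' (comap ψ g) hS ▸
    area_eq g (HereditarilyLindelofSpace.isLindelof S) hf hS Subset.rfl hi

end Vale.Agent.P216HV
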