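import Vale.Agent.P216HV.Nc
import Vale.Agent.P216B.Top
import Mathlib.MeasureTheory.Measure.Lebesgue.VolumeOfBalls

/-! Hausdorff measure and the Riemannian measure; small balls. -/

set_option linter.all false
set_option maxSynthPendingDepth 3

open scoped Manifold ContDiff Topology ENNReal NNReal
open Set MeasureTheory Filter Module Metric

noncomputable section

namespace Vale.Agent.P216HV

open Vale.Agent.P219.RG Vale.Agent.P216R

theorem haus_euc (n : ℕ) (A : Set (EuclideanSpace ℝ (Fin n))) :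
    μH[n] A ≤ (n : ℝ≥0∞) ^ n * volume A := by
  have h1 : LipschitzWith n (WithLp.toLp 2 : (Fin n → ℝ) → EuclideanSpace ℝ (Fin n)) := by
    refine (PiLp.lipschitzWith_toLp 2 fun _ : Fin n => ℝ).weaken ?_
    rcases Nat.eq_zero_or_pos n with rfl | h
    · simp
    · rw [Fintype.card_fin]
      exact (NNReal.rpow_le_rpow_of_exponent_le (by exact_mod_cast h) (by norm_num)).trans_eq
        (NNReal.rpow_one _)
  have h2 := h1.hausdorffMeasure_image_le (d := n) (Nat.cast_nonneg n) (WithLp.toLp 2 ⁻¹' A)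
  have h3 := hausdorffMeasure_pi_real (ι := Fin n)
  rw [Fintype.card_fin] at h3
  rw [image_preimage_eq _ (WithLp.toLp_surjective 2), h3, ENNReal.rpow_natCast] at h2
  exact h2.trans (mul_le_mul_right ((PiLp.volume_preserving_toLp (Fin n)).measure_preimage_le A) _)

/-- a local bound for the measure of images is global -/
theorem le_of_loc {X Y : Type*} [TopologicalSpace X] [MeasurableSpace X] [OpensMeasurableSpace X]
    [MeasurableSpace Y] (μ : Measure X) (ν : Measure Y) (F : X → Y) {C : ℝ≥0∞} {A K : Set X}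
    (hK : IsLindelof K) (hA : A ⊆ K) (h : ∀ x ∈ K, ∃ V, IsOpen V ∧ x ∈ V ∧
      ∀ S, MeasurableSet S → S ⊆ V → ν (F '' (A ∩ S)) ≤ C * μ S) : ν (F '' A) ≤ C * μ A := by
  choose! V h1 h2 h3 using h
  obtain ⟨t, ht, h4, h5⟩ := hK.elim_nhds_subcover V fun x hx => (h1 x hx).mem_nhds (h2 x hx)
  rcases t.eq_empty_or_nonempty with rfl | hne
  · simp [subset_eq_empty (hA.trans h5) (by simp)]
  obtain ⟨f, rfl⟩ := ht.exists_eq_range hne
  have hm : ∀ n, MeasurableSet (toMeasurable μ A ∩ disjointed (V ∘ f) n) := fun n =>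
    (measurableSet_toMeasurable μ A).inter (MeasurableSet.disjointed
      (fun n => (h1 _ (h4 _ (mem_range_self n))).measurableSet) n)
  have hs : F '' A ⊆ ⋃ n, F '' (A ∩ (toMeasurable μ A ∩ disjointed (V ∘ f) n)) := by
    rintro _ ⟨a, ha, rfl⟩
    have : a ∈ ⋃ n, disjointed (V ∘ f) n := by
      rw [iUnion_disjointed]
      simpa using h5 (hA ha)
    obtain ⟨n, hn⟩ := mem_iUnion.1 this
    exact mem_iUnion.2 ⟨n, a, ⟨ha, subset_toMeasurable μ A ha, hn⟩, rfl⟩
  refine (measure_mono hs).trans ((measure_iUnion_le _).trans ((ENNReal.tsum_le_tsum fun n =>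
    h3 _ (h4 _ (mem_range_self n)) _ (hm n)
      (inter_subset_right.trans (disjointed_subset (V ∘ f) n))).trans ?_))
  rw [ENNReal.tsum_mul_left, ← measure_iUnion (fun i j e => (disjoint_disjointed _ e).mono
    inter_subset_right inter_subset_right) hm, ← measure_toMeasurable A]
  exact mul_le_mul_right (measure_mono (iUnion_subset fun n => inter_subset_left)) _

theorem unif_of_loc {X : Type*} [TopologicalSpace X] {K : Set X} {P : X → ℝ → Prop}
    (hK : IsCompact K) (h : ∀ x ∈ K, ∃ s₀ > 0, ∀ᶠ y in 𝓝 x, ∀ s ≤ s₀, P y s) :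
    ∃ s₀ > 0, ∀ y ∈ K, ∀ s ≤ s₀, P y s := by
  refine hK.induction_on (p := fun S => ∃ s₀ > 0, ∀ y ∈ S, ∀ s ≤ s₀, P y s) ⟨1, one_pos, by simp⟩
    (fun S T e ⟨s, p, q⟩ => ⟨s, p, fun y hy => q y (e hy)⟩) ?_ fun x hx => ?_
  · rintro S T ⟨s, p, q⟩ ⟨s', p', q'⟩
    exact ⟨min s s', lt_min p p', fun y hy u hu => hy.elim
      (fun e => q y e u (hu.trans (min_le_left _ _))) fun e => q' y e u (hu.trans (min_le_right _ _))⟩
  · obtain ⟨s, p, q⟩ := h x hx
    exact ⟨_, nhdsWithin_le_nhds q, s, p, fun y hy => hy⟩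

variable {E : Type} [NormedAddCommGroup E] [NormedSpace ℝ E] [FiniteDimensional ℝ E]
  {M : Type} [TopologicalSpace M] [ChartedSpace E M]
  [IsManifold 𝓘(ℝ, E) ∞ M] [MeasurableSpace E] [BorelSpace E] [MeasurableSpace M] [BorelSpace M]
  {g : Ten E M} {U K A : Set M} {μ : Measure M} {x : M} {l : ℝ}
  {Y : Type*} [EMetricSpace Y] [MeasurableSpace Y] [BorelSpace Y]

/-- Hausdorff measure of the image under a contraction -/
theorem haus_le (hμ : IsVol g μ) (hg : Met g U) (hK : IsLindelof K) (hU : K ⊆ U) (hA : A ⊆ K)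
    {F : M → Y} (hF : ∀ a ∈ A, ∀ b ∈ A, edist (F a) (F b) ≤ ed g U a b) :
    μH[finrank ℝ E] (F '' A) ≤ 2 * (2 * finrank ℝ E : ℝ≥0∞) ^ finrank ℝ E * μ A := by
  refine le_of_loc μ _ F hK hA fun x hx => ?_
  obtain ⟨V, φ, ψ, r, h⟩ := exists_nc hμ hg (hU hx) one_lt_two
  refine ⟨V, h.isOpen, h.mem, fun S hS hV => ?_⟩
  have h1 : LipschitzOnWith 2 (F ∘ ψ) (φ '' (A ∩ S)) := by
    rintro _ ⟨a, ha, rfl⟩ _ ⟨b, hb, rfl⟩
    rw [Function.comp, Function.comp, h.left a (hV ha.2), h.left b (hV hb.2)]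
    refine (hF a ha.1 b hb.1).trans ((ed_anti h.sub).trans ?_)
    simpa using h.up a (hV ha.2) b (hV hb.2)
  have h2 := h1.hausdorffMeasure_image_le (d := finrank ℝ E) (Nat.cast_nonneg _)
  rw [image_image, image_congr (f := fun a => (F ∘ ψ) (φ a)) (g := F)
    fun a ha => congrArg F (h.left a (hV ha.2)),
    ENNReal.rpow_natCast] at h2
  refine h2.trans ((mul_le_mul_right ((haus_euc _ _).trans (mul_le_mul_right
    ((measure_mono (image_mono inter_subset_right)).trans (h.vle S hS hV)) _)) _).trans_eq ?_)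
  simp only [ENNReal.coe_ofNat, ENNReal.ofReal_ofNat, mul_pow]
  ring

/-- the same for a space mapped to `M` by an expanding map -/
theorem haus_le_image (hμ : IsVol g μ) (hg : Met g U) (hK : IsLindelof K) (hU : K ⊆ U) {ι : Y → M}
    {B : Set Y} (hB : MapsTo ι B K) (hι : ∀ a ∈ B, ∀ b ∈ B, edist a b ≤ ed g U (ι a) (ι b)) :
    μH[finrank ℝ E] B ≤ 2 * (2 * finrank ℝ E : ℝ≥0∞) ^ finrank ℝ E * μ (ι '' B) := by
  rcases B.eq_empty_or_nonempty with rfl | ⟨b, -⟩
  · simp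
  haveI : Nonempty Y := ⟨b⟩
  have hi : InjOn ι B := fun a ha b hb e => edist_eq_zero.1 (nonpos_iff_eq_zero.1
    ((hι a ha b hb).trans_eq (by rw [e, ed_self (hU (hB hb))])))
  have := haus_le hμ hg hK hU hB.image_subset (F := Function.invFunOn ι B) (by
    rintro _ ⟨a, ha, rfl⟩ _ ⟨b, hb, rfl⟩
    rw [hi.leftInvOn_invFunOn ha, hi.leftInvOn_invFunOn hb]
    exact hι a ha b hb)
  rwa [hi.invFunOn_image Subset.rfl] at this

/-- Lebesgue measure of the image under a map with contracting coordinates -/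
theorem lip_le {ι : Type*} [Fintype ι] (hι : Fintype.card ι = finrank ℝ E) (hμ : IsVol g μ)
    (hg : Met g U) (hK : IsLindelof K) (hU : K ⊆ U) (hA : A ⊆ K) {F : M → ι → ℝ}
    (hF : ∀ a ∈ A, ∀ b ∈ A, ∀ i, |F a i - F b i| ≤ dd g U a b ∨ ed g U a b = ⊤) :
    volume (F '' A) ≤ 2 * (2 * finrank ℝ E : ℝ≥0∞) ^ finrank ℝ E * μ A := by
  rw [← hausdorffMeasure_pi_real, hι]
  refine haus_le hμ hg hK hU hA fun a ha b hb => edist_pi_le_iff.2 fun i => ?_
  rcases hF a ha b hb i with h | h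
  · rw [edist_dist, Real.dist_eq]
    exact (ENNReal.ofReal_le_ofReal h).trans ENNReal.ofReal_toReal_le
  · exact h ▸ le_top

theorem NC.near {V φ ψ r} (h : NC g U μ l x V φ ψ r) {c : ℝ} (hc : 0 < c) :
    ∀ᶠ y in 𝓝 x, y ∈ V ∧ dist (φ y) (φ x) < c :=
  (show ∀ᶠ y in 𝓝 x, y ∈ V from h.isOpen.mem_nhds h.mem).and
    (Metric.tendsto_nhds.1 (h.cont.continuousAt (h.isOpen.mem_nhds h.mem)).tendsto c hc)

/-- small balls are almost as large as Euclidean ones -/
theorem ball_ge (hμ : IsVol g μ) (hg : Met g U) (hK : IsCompact K) (hU : K ⊆ U) (hl : 1 < l) :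
    ∃ s₀ > 0, ∀ y ∈ K, ∀ s ≤ s₀,
      volume (ball (0 : EE E) (s / l)) ≤ ENNReal.ofReal l * μ (bl g U y s) := by
  refine unif_of_loc hK fun x hx => ?_
  obtain ⟨V, φ, ψ, r, h⟩ := exists_nc hμ hg (hU hx) hl
  have l0 : 0 < l := by linarith
  refine ⟨r / 2, half_pos h.pos, (h.near (half_pos h.pos)).mono fun y hy s hs => ?_⟩
  refine le_trans ?_ ((h.vle (bl g U y s ∩ V) ((hg.isOpen_bl y s).inter h.isOpen).measurableSet
    inter_subset_right).trans (mul_le_mul_right (measure_mono inter_subset_left) _))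
  rw [← Measure.addHaar_ball_center volume (φ y)]
  refine measure_mono fun p hp => ?_
  have s0 : 0 < s := by simpa [l0, l0.not_gt] using div_pos_iff.1 (pos_of_mem_ball hp)
  have h1 : p ∈ ball (φ x) r := by
    have := dist_triangle p (φ y) (φ x)
    have h2 : s / l ≤ s := div_le_self s0.le hl.le
    rw [mem_ball] at hp ⊢
    linarith [hy.2]
  refine ⟨ψ p, ⟨((ed_anti h.sub).trans (h.up y hy.1 _ (h.maps' h1))).trans_lt ?_, h.maps' h1⟩,
    h.right p h1⟩
  rw [h.right p h1, edist_dist, ← ENNReal.ofReal_mul l0.le, ENNReal.ofReal_lt_ofReal_iff s0,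
    dist_comm, ← lt_div_iff₀' l0]
  exact hp

/-- small balls are almost as small as Euclidean ones -/
theorem ball_le (hμ : IsVol g μ) (hg : Met g U) (hH : Hs U) (hK : IsCompact K) (hU : K ⊆ U)
    (hl : 1 < l) : ∃ s₀ > 0, ∀ y ∈ K, ∀ s ≤ s₀,
      μ (bl g U y s) ≤ ENNReal.ofReal l * volume (ball (0 : EE E) (l * s)) := by
  refine unif_of_loc hK fun x hx => ?_
  obtain ⟨V, φ, ψ, r, h⟩ := exists_nc hμ hg (hU hx) hl
  have l0 : 0 < l := by linarith
  have r0 := h.pos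
  refine ⟨r / 4 / l, by positivity, (h.near (c := r / 4) (by positivity)).mono fun y hy s hs => ?_⟩
  have k1 : closedBall (φ x) (r / 2) ⊆ ball (φ x) r := closedBall_subset_ball (half_lt_self r0)
  have k2 : ψ '' closedBall (φ x) (r / 2) ⊆ V := (h.maps'.mono_left k1).image_subset
  have k3 : ∀ z, ed g V y z < ENNReal.ofReal s → dist (φ y) (φ z) < l * s := fun z hz => by
    have := (h.lo y hy.1 z (mem_of_ed_ne hz.ne_top).2).trans_lt
      (ENNReal.mul_lt_mul_right (by simpa) ENNReal.ofReal_ne_top hz)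
    rwa [← ENNReal.ofReal_mul l0.le, edist_dist,
      ENNReal.ofReal_lt_ofReal_iff_of_nonneg dist_nonneg] at this
  have k4 : ∀ z ∈ bl g U y s, z ∈ V ∧ dist (φ y) (φ z) < l * s := fun z hz => by
    have := hH.ball_subset ((isCompact_closedBall _ _).image_of_continuousOn (h.cont'.mono k1))
      h.isOpen k2 (k2.trans h.sub) hy.1 (fun w hw => ?_) hz
    · exact ⟨k2 this.1, k3 z (this.2.trans_lt hz)⟩
    · refine ⟨φ w, ?_, h.left w (mem_of_ed_ne hw.ne_top).2⟩
      have := dist_triangle_left (φ w) (φ x) (φ y)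
      rw [le_div_iff₀' l0] at hs
      rw [mem_closedBall]
      linarith [hy.2, k3 w hw]
  refine (h.lev _ (hg.isOpen_bl y s).measurableSet fun z hz => (k4 z hz).1).trans
    (mul_le_mul_right ?_ _)
  rw [← Measure.addHaar_ball_center volume (φ y)]
  refine measure_mono ?_
  rintro _ ⟨z, hz, rfl⟩
  exact mem_ball'.2 (k4 z hz).2

section Three

variable {N : Type} [TopologicalSpace N] [ChartedSpace E3 N] [IsManifold 𝓘(ℝ, E3) ∞ N]
  [MeasurableSpace N] [BorelSpace N] {g : Ten E3 N} {U K A : Set N} {μ : Measure N} {y : N} {r : ℝ}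

theorem fr3 : finrank ℝ E3 = 3 := by simp

theorem vol_ball3 {n : ℕ} (h : n = 3) (s : ℝ) : volume (ball (0 : EuclideanSpace ℝ (Fin n)) s) =
    ENNReal.ofReal s ^ 3 * ENNReal.ofReal (Real.pi * 4 / 3) := by
  subst h
  exact EuclideanSpace.volume_ball_fin_three _ _

theorem c3 : 2 * (2 * finrank ℝ E3 : ℝ≥0∞) ^ finrank ℝ E3 = 432 := by
  rw [fr3]; norm_num

theorem haus_le3 (hμ : IsVol g μ) (hg : Met g U) (hK : IsLindelof K) (hU : K ⊆ U) (hA : A ⊆ K)
    {F : N → Y} (hF : ∀ a ∈ A, ∀ b ∈ A, edist (F a) (F b) ≤ ed g U a b) :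
    μH[3] (F '' A) ≤ 432 * μ A := by
  have := haus_le hμ hg hK hU hA hF
  rw [c3, fr3] at this
  exact_mod_cast this

theorem haus_le_image3 (hμ : IsVol g μ) (hg : Met g U) (hK : IsLindelof K) (hU : K ⊆ U) {ι : Y → N}
    {B : Set Y} (hB : MapsTo ι B K) (hι : ∀ a ∈ B, ∀ b ∈ B, edist a b ≤ ed g U (ι a) (ι b)) :
    μH[3] B ≤ 432 * μ (ι '' B) := by
  have := haus_le_image hμ hg hK hU hB hι
  rw [c3, fr3] at this
  exact_mod_cast this

theorem lip_le3 (hμ : IsVol g μ) (hg : Met g U) (hK : IsCompact K) (hU : K ⊆ U) (hA : A ⊆ K)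
    {F : N → Fin 3 → ℝ} (hF : ∀ a ∈ A, ∀ b ∈ A, ∀ i, |F a i - F b i| ≤ dd g U a b) :
    volume (F '' A) ≤ 432 * μ A :=
  c3 ▸ lip_le (by simp) hμ hg hK.isLindelof hU hA fun a ha b hb i => .inl (hF a ha b hb i)

theorem ball_ge3 (hμ : IsVol g μ) (hg : Met g U) (hK : IsCompact K) (hU : K ⊆ U) :
    ∃ s₀ > 0, ∀ y ∈ K, ∀ s ≤ s₀, ENNReal.ofReal (4 * s ^ 3) ≤ μ (bl g U y s) := by
  obtain ⟨s₀, p, q⟩ := ball_ge hμ hg hK hU (l := 101 / 100) (by norm_num)
  refine ⟨s₀, p, fun y hy s hs => ?_⟩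
  rcases le_or_gt s 0 with s0 | s0
  · rw [ENNReal.ofReal_of_nonpos (by nlinarith [Odd.pow_nonpos (show Odd 3 by decide) s0])]
    exact zero_le
  have := q y hy s hs
  rw [vol_ball3 fr3, ← ENNReal.ofReal_pow (by positivity), ← ENNReal.ofReal_mul (by positivity)]
    at this
  refine (ENNReal.mul_le_mul_iff_right (a := ENNReal.ofReal (101 / 100)) (by simp)
    ENNReal.ofReal_ne_top).1 (le_trans ?_ this)
  rw [← ENNReal.ofReal_mul (by norm_num)]
  refine ENNReal.ofReal_le_ofReal ?_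
  nlinarith [mul_le_mul_of_nonneg_left Real.pi_gt_d2.le (pow_pos s0 3).le, pow_pos s0 3]

theorem ball_le3 (hμ : IsVol g μ) (hg : Met g U) (hH : Hs U) (hK : IsCompact K) (hU : K ⊆ U) :
    ∃ s₀ > 0, ∀ y ∈ K, ∀ s ≤ s₀, μ (bl g U y s) ≤ ENNReal.ofReal (5 * s ^ 3) := by
  obtain ⟨s₀, p, q⟩ := ball_le hμ hg hH hK hU (l := 101 / 100) (by norm_num)
  refine ⟨s₀, p, fun y hy s hs => (q y hy s hs).trans ?_⟩
  rcases le_or_gt s 0 with s0 | s0
  · rw [ball_eq_empty.2 (by linarith), measure_empty, mul_zero]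
    exact zero_le
  rw [vol_ball3 fr3, ← ENNReal.ofReal_pow (by positivity), ← ENNReal.ofReal_mul (by positivity),
    ← ENNReal.ofReal_mul (by norm_num)]
  refine ENNReal.ofReal_le_ofReal ?_
  nlinarith [mul_le_mul_of_nonneg_left Real.pi_le_four (pow_pos s0 3).le, pow_pos s0 3,
    mul_le_mul_of_nonneg_left Real.pi_lt_d2.le (pow_pos s0 3).le]

end Three

end Vale.Agent.P216HV
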