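import Vale.Agent.P216FA.Plan
import Vale.Agent.P216BF.Ball
import Vale.Agent.P216B.Top

/-! A controlled parabolic neighbourhood lies in the region. -/

set_option linter.all false

open scoped Manifold ContDiff Topology ENNReal
open Set MeasureTheory Filter

namespace Vale.Agent.P216HV

open Vale.Agent.P216R Vale.Agent.P216DC Vale.Agent.P216SG Vale.Agent.P216BF Vale.Agent.P216FA

variable {X : Mf} {F : Dat X.M} {c : ℕ → ℝ} {A A' T K s σ ρ : ℝ} {y : X.M}

theorem sl_top : F.sl F.t = F.U := if_neg (lt_irrefl _)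

theorem sl_lt (h : s < F.t) : F.sl s = postS F.b F.d s := if_pos h

theorem sl_prec (hs : s ≤ F.t) : Prec F.b F.d F.U F.t (F.sl s) s := by
  rcases hs.eq_or_lt with rfl | h
  · exact .inl ⟨rfl, sl_top⟩
  · exact .inr ⟨h, sl_lt h⟩

theorem sl_sl (hF : F.Bas c) (h0 : F.T₀ ≤ s) (hs : s ≤ F.t) :
    Sl F.b F.d F.T₀ F.T₁ (F.sl s) s := by
  rcases hs.eq_or_lt with rfl | h
  · rw [sl_top]; exact hF.sl
  · rw [sl_lt h]; exact sl_post ⟨h0, h.trans_le hF.sl.mem_Icc.2⟩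

theorem bl_sub_sl (hF : F.Bas c) (h : ParB F.g F.U F.x F.t A T K)
    (hs : s ∈ Icc (F.t - T) F.t) : bl (F.g F.t) F.U F.x A ⊆ F.sl s := by
  rcases hs.2.eq_or_lt with rfl | h'
  · rw [sl_top]; exact bl_subset
  · rw [sl_lt h']
    exact (hF.sf.subset_liv (hs.1.trans hs.2) h.1.toFam).trans (liv_subset_postS ⟨hs.1, h'⟩)

/-- balls of earlier slices about points of a controlled parabolic neighbourhood -/
theorem bl_sl_sub (hF : F.Bas c) (h : ParB F.g F.U F.x F.t A' T K) (hK : 0 ≤ K)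
    (hy : y ∈ bl (F.g F.t) F.U F.x A) (hρ : 0 < ρ) (hA : A + Real.exp (2 * K * T) * ρ ≤ A')
    (hs : s ∈ Icc (F.t - T) F.t) :
    bl (F.g s) (F.sl s) y ρ ⊆ bl (F.g F.t) F.U y (Real.exp (2 * K * T) * ρ) := by
  have hm := hF.sf.met hF.sl
  have h1 : bl (F.g F.t) F.U y (Real.exp (2 * K * T) * ρ) ⊆ bl (F.g F.t) F.U F.x A' :=
    bl_sub_bl' hy hA
  have hy' : y ∈ bl (F.g F.t) F.U F.x A' := h1 (mem_bl_self (bl_subset hy) (by positivity))
  have h2 : Real.exp (2 * K * |F.t - s|) * ρ ≤ Real.exp (2 * K * T) * ρ := by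
    rw [abs_of_nonneg (sub_nonneg.2 hs.2)]
    gcongr
    linarith [hs.1]
  exact (rf_bl_bwd h.1 (ricB_of_parB finrank_E3 h) hs ⟨hs.1.trans hs.2, le_rfl⟩
    (hm.isOpen_bl _ _) h1 (h1.trans (bl_sub_sl hF h hs)) (hF.sf.sl_hs (sl_sl hF
      ((hF.sf.le_of_fam (hs.1.trans hs.2) h.1.toFam hy').trans hs.1) hs.2))
    ((hm.cpl (hF.sf.sl_cpt hF.sl)).cpt (bl_subset hy) _) (bl_subset hy) h2).trans (bl_mono h2)

/-- small windows inside a controlled parabolic neighbourhood -/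
theorem parB_sl (hF : F.Bas c) (h : ParB F.g F.U F.x F.t A' T K) (hK : 0 ≤ K)
    (hy : y ∈ bl (F.g F.t) F.U F.x A) (hρ : 0 < ρ) (hA : A + Real.exp (2 * K * T) * ρ ≤ A')
    (hs : s ≤ F.t) (hσ : 0 ≤ σ) (h0 : F.t - T ≤ s - σ) : ParB F.g (F.sl s) y s ρ σ K := by
  have hs' : s ∈ Icc (F.t - T) F.t := ⟨by linarith, hs⟩
  have h1 := (bl_sl_sub hF h hK hy hρ hA hs').trans (bl_sub_bl' hy hA)
  have hy' : y ∈ bl (F.g F.t) F.U F.x A' :=
    bl_sub_bl' hy hA (mem_bl_self (bl_subset hy) (by positivity))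
  have h2 := hF.sf.met (sl_sl hF
    ((hF.sf.le_of_fam (hs'.1.trans hs) h.1.toFam hy').trans hs'.1) hs)
  exact ⟨SF.rf_sub h.1 (Icc_subset_Icc h0 hs) (h2.isOpen_bl _ _) h1,
    fun u hu z hz => h.2 u (Icc_subset_Icc h0 hs hu) z (h1 hz)⟩

theorem regn : REGN := by
  intro P e hP A T K
  obtain ⟨ρ, ρ0, ρ1⟩ : ∃ ρ > 0, K ≤ 1 / ρ ^ 2 := ⟨(√(max K 1))⁻¹, by positivity, by
    rw [inv_pow, Real.sq_sqrt (by positivity), one_div, inv_inv]; exact le_max_left _ _⟩
  obtain ⟨N, hN⟩ := exists_nat_ge (T / ρ ^ 2)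
  rw [div_le_iff₀ (by positivity)] at hN
  have c0 := mul_nonneg hP.CD0 ρ0.le
  set r := |A| + N * (P.CD * ρ) with hr
  have r0 : 0 ≤ r := by positivity
  refine ⟨r, |A| + Real.exp (2 * (1 / ρ ^ 2) * T) * (2 * ρ), by positivity, r + |T| + ρ,
    by positivity, fun X F hF hT h y hy => ?_⟩
  have hB := hF.bas
  replace h : ParB F.g F.U F.x F.t _ T (1 / ρ ^ 2) :=
    ⟨h.1, fun s hs z hz => rmB_mono (h.2 s hs z hz) ρ1⟩
  have hA : A + Real.exp (2 * (1 / ρ ^ 2) * T) * (2 * ρ) ≤ _ := add_le_add_left (le_abs_self A) _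
  have hy' := bl_sub_bl' hy hA (mem_bl_self (bl_subset hy) (by positivity))
  rw [abs_of_nonneg hT] at hF
  have key : ∀ k : ℕ, k ≤ N → ∀ s ∈ Icc (F.t - T) F.t, F.t - s ≤ k * ρ ^ 2 →
      F.D (F.sl s) s y ≤ F.D F.U F.t F.x + (|A| + k * (P.CD * ρ)) := by
    intro k
    induction k with
    | zero =>
      intro _ s hs h0
      obtain rfl : s = F.t := by simp at h0; linarith [hs.2]
      have := hF.env.d1 F.U F.t F.x ⟨.inl ⟨rfl, rfl⟩, by linarith, hB.mem, by linarith⟩ y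
        (bl_subset hy)
      rw [sl_top]
      simp only [Nat.cast_zero, zero_mul, add_zero]
      linarith [(mem_bl_iff.1 hy).2, le_abs_self A]
    | succ k ih =>
      intro hk s hs h0
      replace ih := ih (by omega)
      have k1 : (k : ℝ) ≤ N := by exact_mod_cast (by omega : k ≤ N)
      push_cast at h0 ⊢
      rcases le_or_gt (F.t - s) (k * ρ ^ 2) with e | e
      · linarith [ih s hs e]
      have k0 : 0 ≤ k * ρ ^ 2 := by positivity
      have hu : F.t - k * ρ ^ 2 ∈ Icc (F.t - T) F.t := ⟨by linarith [hs.1], by linarith⟩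
      have h1 := ih _ hu (by linarith)
      have h2 := hF.env.d2 _ _ y ⟨sl_prec hu.2, by linarith [hu.1], bl_sub_sl hB h hu hy',
        h1.trans (by nlinarith)⟩ ρ ⟨ρ0, by linarith⟩ (F.t - k * ρ ^ 2 - s)
        ⟨by linarith, by linarith⟩ (by linarith [hs.1])
        (parB_sl hB h (by positivity) hy (by positivity) hA hu.2 (by linarith)
          (by linarith [hs.1]))
      rw [sub_sub_cancel] at h2
      rw [sl_lt (by linarith)]
      linarith
  exact fun s hs => ⟨sl_prec hs.2, hs.1, bl_sub_sl hB h hs hy',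
    key N le_rfl s hs (by linarith [hs.1])⟩

end Vale.Agent.P216HV
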