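import Vale.Agent.P216FA.Plan
import Vale.Agent.P216BF.Curv
import Vale.Agent.P216B.Top

/-! Extension of the controlled region beyond a time with bounded curvature. -/

set_option linter.all false

open scoped Manifold ContDiff Topology ENNReal
open Set MeasureTheory Filter

namespace Vale.Agent.P216HV

open Vale.Agent.P216R Vale.Agent.P216DC Vale.Agent.P216SG Vale.Agent.P216BF Vale.Agent.P216FA

theorem wt_pos {a K : ℝ} (ha : 0 < a) (hK : 0 < K) : 0 < wt a K := by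
  unfold wt; positivity

theorem wr_pos {a K : ℝ} (ha : 0 < a) (hK : 0 < K) : 0 < wr a K := by
  unfold wr; positivity

/-- windows at all the points of a ball extend a parabolic neighbourhood -/
theorem parB_ext {X : Mf} {F : Dat X.M} {c : ℕ → ℝ} (hF : F.Bas c) {A τ K ρ σ K' : ℝ}
    (hτ : 0 ≤ τ) (hρ : 0 < ρ) (hσ : 0 < σ) (h : ParB F.g F.U F.x F.t A τ K)
    (hw : ∀ y ∈ bl (F.g F.t) F.U F.x A, ∃ W, y ∈ W ∧ ParB F.g W y (F.t - τ) ρ σ K') :
    ParB F.g F.U F.x F.t A (τ + σ) (max K K') := by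
  refine ⟨hF.sf.rf_of_born hF.sl (by linarith) ((hF.sf.met hF.sl).isOpen_bl _ _) bl_subset
    fun y hy => ?_, fun s hs y hy => ?_⟩
  · obtain ⟨W, h1, h2⟩ := hw y hy
    have := (hF.sf.subset_liv (by linarith) h2.1.toFam (mem_bl_self h1 hρ)).1
    linarith
  · obtain ⟨W, h1, h2⟩ := hw y hy
    rcases le_total s (F.t - τ) with e | e
    · exact fun v hv => (h2.2 s ⟨by linarith [hs.1], e⟩ y (mem_bl_self h1 hρ) v hv).trans
        (le_max_right _ _)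
    · exact fun v hv => (h.2 s ⟨e, hs.2⟩ y hy v hv).trans (le_max_left _ _)

theorem ext (hW : WIN) (hR : REGN) : EXT := by
  intro P e hP
  obtain ⟨a₀, p₀, hW⟩ := hW P e hP
  refine ⟨a₀, p₀, fun a ha ι l X F T K hB hT hE => ?_⟩
  set K₁ := max (max P.L 1) (6 * K) with hK₁
  have k1 : max P.L 1 ≤ K₁ := le_max_left _ _
  have k0 : 0 < K₁ := one_pos.trans_le ((le_max_right _ _).trans k1)
  have w0 := wt_pos ha.1 k0
  obtain ⟨τ, τ0, τ1, τ2⟩ : ∃ τ, 0 < τ ∧ τ < T ∧ T < τ + wt a K₁ :=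
    ⟨T - min (wt a K₁ / 2) (T / 2), by linarith [min_le_right (wt a K₁ / 2) (T / 2)],
      by linarith [lt_min (half_pos w0) (half_pos hT)],
      by linarith [min_le_left (wt a K₁ / 2) (T / 2)]⟩
  refine or_iff_not_imp_left.2 fun hc => ⟨_, τ2, max K (16 * K₁), fun A hA => ?_⟩
  obtain ⟨r, A', pA, lev, pl, hR⟩ := hR P e hP A τ K
  obtain ⟨lev', pl', r', hr, hW⟩ := hW a ha r τ
  have h1 := Ultrafilter.eventually_not.2 fun h => hc ⟨τ, .inr ⟨τ0, (τ + T) / 2, by linarith, K,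
    hE _ ⟨by linarith, by linarith⟩⟩, A, K₁, r', k1, h⟩
  filter_upwards [h1, hB.ctl lev pl, hB.ctl lev' pl', hE τ ⟨τ0, τ1⟩ A hA, hE τ ⟨τ0, τ1⟩ A' pA]
    with n h1 h2 h3 h4 h5
  obtain ⟨h6, h7, -⟩ := hB.all n
  rw [← h7] at h4 h5 ⊢
  refine parB_ext h6 τ0.le (wr_pos ha.1 k0) w0 h4 fun y hy => ?_
  have hI : (F n).t - τ ∈ Icc ((F n).t - τ) (F n).t := ⟨le_rfl, by linarith⟩
  have h8 := hR _ _ h2 τ0.le h5 y hy _ hI
  have h9 : Sc ((F n).g ((F n).t - τ)) y ≤ K₁ := ((le_abs_self _).trans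
    (abs_sc_le3 finrank_E3 (SF.fam_met h4.1.toFam hI) hy (h4.2 _ hI y hy))).trans (le_max_right _ _)
  refine ⟨_, h8.mem, (hW _ _ _ _ _ _ h3 h8 k1 h9).resolve_right fun ⟨z, hz⟩ => h1 ?_⟩
  rw [h7, zero_sub] at h8 h9 hz
  rw [h7] at hy
  exact ⟨y, hy, _, z, ⟨h8.prec, h8.le, h8.mem, h8.dle.trans (by linarith)⟩, h9, hz⟩

end Vale.Agent.P216HV
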