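import Vale.Agent.P216HV.Hv
import Vale.Agent.P216FI.Vol
import Vale.Agent.P216RS.Reset

/-! Two inputs of the reset lemma. -/

namespace Vale.Agent.P216HV

open Vale.Agent.P216R

theorem lip : P216RS.LIP 432 := fun _ _ _ _ _ _ g _ _ _ hg _ hK _ hF => by
  simpa using lip_le3 (isVol_vol g) hg hK cbl_subset bl_subset_cbl hF

theorem nb : P216RS.NB := fun _ _ _ _ _ _ hg _ _ hp _ hr => hg.bl_mem_nhds hp hr

end Vale.Agent.P216HV
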