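import Vale.Agent.P216B.Mid

/-! Almost isometric charts; Hausdorff measure and the Riemannian measure; small balls. -/

set_option linter.all false
set_option maxSynthPendingDepth 3

open scoped Manifold ContDiff Topology ENNReal NNReal
open Set MeasureTheory Filter Module Metric

noncomputable section

namespace Vale.Agent.P216HV

open Vale.Agent.P219.RG Vale.Agent.P216R
open Vale.Agent.P210.R2.H53 (dens)

variable {E : Type} [NormedAddCommGroup E] [NormedSpace ℝ E] [FiniteDimensional ℝ E]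

/-- the Euclidean space of the same dimension -/
abbrev EE (E : Type) [NormedAddCommGroup E] [NormedSpace ℝ E] : Type :=
  EuclideanSpace ℝ (Fin (finrank ℝ E))

theorem exists_on {B : Bil E} (hs : ∀ v w, B v w = B w v) (hp : ∀ v, v ≠ 0 → 0 < B v v) :
    ∃ b : Basis (Fin (finrank ℝ E)) ℝ E, ∀ i j, B (b i) (b j) = if i = j then 1 else 0 := by
  obtain ⟨v, hv⟩ := LinearMap.BilinForm.exists_orthogonal_basis (K := ℝ) (V := E)
    (B := LinearMap.mk₂ ℝ (fun v w => B v w) (by simp) (by simp) (by simp) (by simp))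
    ⟨fun v w => hs v w⟩
  have p : ∀ i, 0 < √(B (v i) (v i)) := fun i => Real.sqrt_pos.2 (hp _ (v.ne_zero i))
  refine ⟨v.isUnitSMul (w := fun i => (√(B (v i) (v i)))⁻¹) fun i => (inv_pos.2 (p i)).ne'.isUnit,
    fun i j => ?_⟩
  simp only [Basis.isUnitSMul_apply, map_smul, ContinuousLinearMap.smul_apply, smul_eq_mul]
  split_ifs with e
  · subst e
    rw [← mul_assoc, ← mul_inv, Real.mul_self_sqrt (hp _ (v.ne_zero i)).le,
      inv_mul_cancel₀ (hp _ (v.ne_zero i)).ne']
  · rw [show B (v i) (v j) = 0 from hv e, mul_zero, mul_zero]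

/-- linear coordinates in which `B` is the Euclidean inner product -/
theorem exists_iso [MeasurableSpace E] [BorelSpace E] {B : Bil E} (hs : ∀ v w, B v w = B w v)
    (hp : ∀ v, v ≠ 0 → 0 < B v v) : ∃ L : E ≃L[ℝ] EE E, (∀ v w, B v w = inner ℝ (L v) (L w)) ∧
      0 < dens (fun _ => B) 0 ∧ ∀ A, volume (L '' A) =
        ENNReal.ofReal (dens (fun _ => B) 0) * (finBasis ℝ E).addHaar A := by
  obtain ⟨b, hb⟩ := exists_on hs hp
  set o := EuclideanSpace.basisFun (Fin (finrank ℝ E)) ℝ
  set L := (b.equiv o.toBasis (Equiv.refl _)).toContinuousLinearEquiv with hL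
  have h0 : ∀ i, L (b i) = o i := fun i => by simp [hL]
  have h1 : ∀ v w, B v w = inner ℝ (L v) (L w) := fun v w => by
    rw [← b.sum_repr v, ← b.sum_repr w]
    simp only [map_sum, map_smul, ContinuousLinearMap.sum_apply, ContinuousLinearMap.smul_apply,
      hb, h0, inner_sum, sum_inner, inner_smul_left, inner_smul_right, smul_eq_mul,
      orthonormal_iff_ite.1 o.orthonormal, conj_trivial]
  have h2 : dens (fun _ => B) 0 = |b.det (finBasis ℝ E)| := by
    rw [dens, ← Real.sqrt_sq_eq_abs, Basis.det_apply, sq]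
    nth_rw 1 [← Matrix.det_transpose (b.toMatrix _)]
    rw [← Matrix.det_mul]
    congr 2
    ext i j
    rw [Matrix.of_apply]
    conv_lhs => rw [← b.sum_repr (finBasis ℝ E i), ← b.sum_repr (finBasis ℝ E j)]
    simp only [map_sum, map_smul, ContinuousLinearMap.sum_apply, ContinuousLinearMap.smul_apply,
      hb, smul_eq_mul, mul_ite, mul_one, mul_zero, Finset.sum_ite_eq', Finset.sum_ite_eq,
      Finset.mem_univ, if_true, Matrix.mul_apply, Matrix.transpose_apply, Basis.toMatrix_apply]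
    exact Finset.sum_congr rfl fun _ _ => mul_comm _ _
  have h3 : Measure.map L b.addHaar = volume := by
    rw [b.map_addHaar, ← o.addHaar_eq_volume]
    congr 1
    ext i
    rw [Basis.map_apply]
    exact congrFun (congrArg _ (h0 i)) _
  refine ⟨L, h1, h2 ▸ abs_pos.2 (b.isUnit_det _).ne_zero, fun A => ?_⟩
  rw [← h3, L.toHomeomorph.measurableEmbedding.map_apply (f := L),
    preimage_image_eq _ L.injective, h2, ← Measure.addHaar_parallelepiped]
  conv_lhs => rw [Measure.addHaarMeasure_unique b.addHaar (finBasis ℝ E).parallelepiped,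
    ← Basis.addHaar_def]
  rfl

variable {M : Type} [TopologicalSpace M] [ChartedSpace E M]

/-- an almost isometric chart about `x` onto a Euclidean ball -/
structure NC (g : Ten E M) (U : Set M) [MeasurableSpace M] (μ : Measure M) (l : ℝ) (x : M)
    (V : Set M) (φ : M → EE E) (ψ : EE E → M) (r : ℝ) : Prop where
  pos : 0 < r
  isOpen : IsOpen V
  mem : x ∈ V
  sub : V ⊆ U
  cont : ContinuousOn φ V
  cont' : ContinuousOn ψ (ball (φ x) r)
  maps : MapsTo φ V (ball (φ x) r)
  maps' : MapsTo ψ (ball (φ x) r) V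
  left : ∀ y ∈ V, ψ (φ y) = y
  right : ∀ p ∈ ball (φ x) r, φ (ψ p) = p
  up : ∀ y ∈ V, ∀ z ∈ V, ed g V y z ≤ ENNReal.ofReal l * edist (φ y) (φ z)
  lo : ∀ y ∈ V, ∀ z ∈ V, edist (φ y) (φ z) ≤ ENNReal.ofReal l * ed g V y z
  vle : ∀ S, MeasurableSet S → S ⊆ V → volume (φ '' S) ≤ ENNReal.ofReal l * μ S
  lev : ∀ S, MeasurableSet S → S ⊆ V → μ S ≤ ENNReal.ofReal l * volume (φ '' S)

variable [IsManifold 𝓘(ℝ, E) ∞ M] [MeasurableSpace E] [BorelSpace E] [MeasurableSpace M]
  {g : Ten E M} {U : Set M} {μ : Measure M} {x : M} {l : ℝ}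

theorem near_form {G : E → Bil E} {u : E} (hG : ContinuousAt G u) (L : E ≃L[ℝ] EE E)
    (hL : ∀ v w, G u v w = inner ℝ (L v) (L w)) {δ : ℝ} (hδ : 0 < δ) :
    ∀ᶠ z in 𝓝 u, ∀ v, |G z v v - G u v v| ≤ δ * G u v v := by
  have p : 0 < δ / (‖(L.symm : EE E →L[ℝ] E)‖ ^ 2 + 1) := by positivity
  filter_upwards [Metric.tendsto_nhds.1 hG.tendsto _ p] with z hz v
  replace hz := hz.le
  have h1 := (G z - G u).le_opNorm₂ v v
  have h2 := (L.symm : EE E →L[ℝ] E).le_opNorm (L v)
  rw [ContinuousLinearEquiv.coe_coe, L.symm_apply_apply] at h2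
  rw [dist_eq_norm, le_div_iff₀ (by positivity)] at hz
  rw [hL, real_inner_self_eq_norm_sq, ← real_inner_self_eq_norm_sq, ← hL,
    show G u v v = ‖L v‖ ^ 2 from (hL _ _).trans (real_inner_self_eq_norm_sq _)]
  simp only [ContinuousLinearMap.sub_apply, Real.norm_eq_abs] at h1
  rw [show G u v v = ‖L v‖ ^ 2 from (hL _ _).trans (real_inner_self_eq_norm_sq _)] at h1
  have h3 := mul_self_le_mul_self (norm_nonneg _) h2
  nlinarith [mul_le_mul_of_nonneg_left h3 (norm_nonneg (G z - G u)),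
    mul_le_mul_of_nonneg_right hz (sq_nonneg ‖L v‖),
    mul_nonneg (norm_nonneg (G z - G u)) (sq_nonneg ‖L v‖)]

theorem continuous_dens : Continuous fun B : Bil E => dens (fun _ => B) 0 :=
  Real.continuous_sqrt.comp (Continuous.matrix_det (continuous_matrix fun i j => by
    simp only [Matrix.of_apply]; fun_prop))

theorem exists_nc (hμ : IsVol g μ) (hg : Met g U) (hx : x ∈ U) (hl : 1 < l) :
    ∃ V φ ψ r, NC g U μ l x V φ ψ r := by
  obtain ⟨L, h1, h2, h3⟩ := exists_iso (hg.symm x hx) (hg.pos x hx)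
  have l0 : 0 < l := by linarith
  have i1 : l⁻¹ < 1 := inv_lt_one_of_one_lt₀ hl
  have hd := (isOpen_dom (E := E) x hg.isOpen).mem_nhds (pt_mem_dom hx)
  have hc := ((hg.smooth x).contDiffAt hd).continuousAt
  have e1 := near_form hc L (by rwa [co_pt]) (sub_pos.2 i1)
  have e2 := (continuous_dens.continuousAt.comp hc).eventually (Icc_mem_nhds
    (a := l⁻¹ * dens (fun _ => g x) 0) (b := l * dens (fun _ => g x) 0)
    (by simp only [Function.comp, co_pt]; nlinarith) (by simp only [Function.comp, co_pt]; nlinarith))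
  have hd' : ∀ᶠ u in 𝓝 (pt E x), u ∈ dom E x U := hd
  have e3 := (L.symm.continuous.tendsto' _ _ (L.symm_apply_apply (pt E x))).eventually
    ((e1.and e2).and hd')
  obtain ⟨r, r0, hr⟩ := Metric.eventually_nhds_iff_ball.1 e3
  set S : Set E := L ⁻¹' ball (L (pt E x)) r with hS
  have hS1 : ∀ u ∈ S, _ := fun u hu => by simpa only [L.symm_apply_apply, co_pt] using hr _ hu
  have hSo : IsOpen S := isOpen_ball.preimage L.continuous
  have hSc : Convex ℝ S := (convex_ball _ _).linear_preimage (L : E →ₗ[ℝ] EE E)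
  have hSt : S ⊆ (chartAt E x).target := fun u hu => (hS1 u hu).2.1
  have hV : (chartAt E x).symm '' S = (chartAt E x).source ∩ chartAt E x ⁻¹' S :=
    (chartAt E x).symm_image_eq_source_inter_preimage hSt
  have key : ∀ y ∈ (chartAt E x).source ∩ chartAt E x ⁻¹' S,
      ∀ z ∈ (chartAt E x).source ∩ chartAt E x ⁻¹' S, ed g ((chartAt E x).source ∩ chartAt E x ⁻¹' S)
        y z = ed (co g x) S (chartAt E x y) (chartAt E x z) := fun y hy z hz => by
    have := ed_image (h := g) ((ld_symm x).mono hSo hSt) ((chartAt E x).symm.injOn.mono hSt)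
      hy.2 hz.2
    rwa [hV, (chartAt E x).left_inv hy.1, (chartAt E x).left_inv hz.1] at this
  have nn : ∀ v, 0 ≤ g x v v := hg.nonneg hx
  have sq : ∀ v, √(g x v v) = ‖L v‖ := fun v => by
    rw [h1, real_inner_self_eq_norm_sq, Real.sqrt_sq (norm_nonneg _)]
  have ae : ∀ T ⊆ (chartAt E x).source ∩ chartAt E x ⁻¹' S,
      ∀ᵐ u ∂(finBasis ℝ E).addHaar.restrict (chartAt E x '' T), u ∈ S := fun T hT =>
    ae_mono (Measure.restrict_mono (by rintro _ ⟨y, hy, rfl⟩; exact (hT hy).2) le_rfl)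
      (ae_restrict_mem hSo.measurableSet)
  have il : l⁻¹ * l = 1 := inv_mul_cancel₀ l0.ne'
  refine ⟨(chartAt E x).source ∩ chartAt E x ⁻¹' S, fun y => L (chartAt E x y),
    fun p => (chartAt E x).symm (L.symm p), r, r0, (chartAt E x).isOpen_inter_preimage hSo,
    ⟨mem_chart_source E x, mem_ball_self r0⟩, fun y hy => ?_, L.continuous.comp_continuousOn
      ((chartAt E x).continuousOn.mono inter_subset_left), (chartAt E x).continuousOn_symm.comp
      L.symm.continuous.continuousOn fun p hp => (hr p hp).2.1, fun y hy => hy.2,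
    fun p hp => hV ▸ mem_image_of_mem _ (show L (L.symm p) ∈ _ by rwa [L.apply_symm_apply]), fun y hy => ?_, fun p hp => ?_,
    fun y hy z hz => ?_, fun y hy z hz => ?_, fun T h4 hT => ?_, fun T h4 hT => ?_⟩
  · exact (chartAt E x).left_inv hy.1 ▸ (hS1 _ hy.2).2.2
  · rw [L.symm_apply_apply, (chartAt E x).left_inv hy.1]
  · rw [(chartAt E x).right_inv (hr p hp).2.1, L.apply_symm_apply]
  · rw [key y hy z hz, edist_dist, dist_eq_norm, ← map_sub, ← sq, ← ENNReal.ofReal_mul l0.le]
    refine ed_le_form hSc hy.2 hz.2 l0.le fun u hu v => ?_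
    have : 2 - l⁻¹ ≤ l ^ 2 := by nlinarith
    nlinarith [(abs_le.1 ((hS1 u hu).1.1 v)).2, mul_le_mul_of_nonneg_right this (nn v)]
  · rw [key y hy z hz, edist_eq_enorm_sub, ← map_sub]
    have := lin_le_ed (G := co g x) (S := S) (l⁻¹ • (L : E →L[ℝ] EE E)) (fun u hu v => ?_)
      (chartAt E x y) (chartAt E x z)
    · refine le_trans (le_of_eq ?_) (mul_le_mul_right this _)
      rw [ContinuousLinearMap.smul_apply, enorm_smul, ← mul_assoc, Real.enorm_eq_ofReal (by
        positivity), ← ENNReal.ofReal_mul l0.le, mul_inv_cancel₀ l0.ne', ENNReal.ofReal_one, one_mul]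
      rfl
    · rw [ContinuousLinearMap.smul_apply, norm_smul, ContinuousLinearEquiv.coe_coe, ← sq,
        Real.norm_of_nonneg (by positivity), ← Real.sqrt_sq (show 0 ≤ l⁻¹ by positivity),
        ← Real.sqrt_mul (sq_nonneg _)]
      refine Real.sqrt_le_sqrt ?_
      have : l⁻¹ ^ 2 ≤ l⁻¹ := by nlinarith [inv_pos.2 l0]
      nlinarith [(abs_le.1 ((hS1 u hu).1.1 v)).1, mul_le_mul_of_nonneg_right this (nn v)]
  · rw [← image_image L, h3, hμ x T h4 (hT.trans inter_subset_left), ← setLIntegral_const,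
      ← lintegral_const_mul' _ _ ENNReal.ofReal_ne_top]
    refine lintegral_mono_ae ((ae T hT).mono fun u hu => ?_)
    rw [← ENNReal.ofReal_mul l0.le]
    exact ENNReal.ofReal_le_ofReal ((inv_mul_le_iff₀ l0).1 (hS1 u hu).1.2.1)
  · rw [← image_image L, h3, hμ x T h4 (hT.trans inter_subset_left), ← mul_assoc,
      ← setLIntegral_const, ← ENNReal.ofReal_mul l0.le]
    exact lintegral_mono_ae ((ae T hT).mono fun u hu => ENNReal.ofReal_le_ofReal (hS1 u hu).1.2.2)

end Vale.Agent.P216HV
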